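import Vale.Agent.P181.H583.Fis

set_option autoImplicit false

/-!
# P181, GN, (Q1), part a: closed families are exact, and orthogonal to the syzygies of `q_i`
-/

open MvPolynomial

namespace Vale.Agent.P181.GN.H242

open Vale.Agent.P181.H583

section

variable {κ ι : Type} [Fintype ι] [Fintype κ]

/-- `q_i = ∑ j, X (i, j)`. -/
noncomputable def qs (i : κ) : MvPolynomial (κ × ι) ℂ := ∑ j, X (i, j)

/-- `D_i = ∑ j, ∂ (i, j)`. -/
noncomputable def Dr (i : κ) : MvPolynomial (κ × ι) ℂ →ₗ[ℂ] MvPolynomial (κ × ι) ℂ :=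
  ∑ j : ι, (pderiv (R := ℂ) (i, j)).toLinearMap

omit [Fintype κ] in
lemma Dr_apply (i : κ) (f : MvPolynomial (κ × ι) ℂ) : Dr i f = ∑ j, pderiv (i, j) f := by
  rw [Dr, LinearMap.sum_apply]
  rfl

lemma pd_comm {σ : Type} (x y : σ) (f : MvPolynomial σ ℂ) :
    pderiv x (pderiv y f) = pderiv y (pderiv x f) := by
  classical
  induction f using MvPolynomial.induction_on with
  | C a => simp
  | add f g hf hg => simp only [map_add, hf, hg]
  | mul_X f p hf =>
    simp only [Derivation.leibniz, smul_eq_mul, map_add, hf, pderiv_X]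
    by_cases h1 : p = x
    · subst h1
      by_cases h2 : p = y
      · subst h2
        simp
      · simp [h2]
        try ring
    · by_cases h2 : p = y
      · subst h2
        simp [h1]
        try ring
      · simp [h1, h2]
        try ring

omit [Fintype κ] in
lemma Dr_comm (i k : κ) (f : MvPolynomial (κ × ι) ℂ) : Dr i (Dr k f) = Dr k (Dr i f) := by
  simp only [Dr_apply, map_sum]
  rw [Finset.sum_comm]
  exact Finset.sum_congr rfl fun j _ => Finset.sum_congr rfl fun l _ => pd_comm _ _ _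

omit [Fintype κ] in
lemma pd_qs [DecidableEq κ] (i k : κ) (j : ι) :
    pderiv (i, j) (qs k : MvPolynomial (κ × ι) ℂ) = if i = k then 1 else 0 := by
  classical
  rw [qs, map_sum]
  by_cases h : i = k
  · subst h
    rw [if_pos rfl, Finset.sum_eq_single j]
    · exact pderiv_X_self _
    · intro l _ hl
      exact pderiv_X_of_ne fun e => hl (congrArg Prod.snd e)
    · intro h'
      exact absurd (Finset.mem_univ _) h'
  · rw [if_neg h]
    exact Finset.sum_eq_zero fun l _ => pderiv_X_of_ne fun e => h (congrArg Prod.fst e).symm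

omit [Fintype κ] in
lemma Dr_qs_mul [DecidableEq κ] (i k : κ) (f : MvPolynomial (κ × ι) ℂ) :
    Dr i (qs k * f) = (if i = k then (Fintype.card ι : ℂ) else 0) • f + qs k * Dr i f := by
  simp only [Dr_apply, Derivation.leibniz, smul_eq_mul, pd_qs, Finset.sum_add_distrib]
  rw [add_comm, Finset.mul_sum]
  congr 1
  by_cases h : i = k
  · simp [h, MvPolynomial.smul_eq_C_mul, mul_comm]
  · simp [h]

/-- `c + ∑ q_k D_k`. -/
noncomputable def Top (c : ℂ) : MvPolynomial (κ × ι) ℂ →ₗ[ℂ] MvPolynomial (κ × ι) ℂ :=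
  c • LinearMap.id + ∑ k : κ, (LinearMap.mulLeft ℂ (qs k)) ∘ₗ Dr k

lemma Top_apply (c : ℂ) (f : MvPolynomial (κ × ι) ℂ) :
    Top c f = c • f + ∑ k, qs k * Dr k f := by
  rw [Top, LinearMap.add_apply, LinearMap.sum_apply]
  rfl

lemma Dr_Top [DecidableEq κ] (c : ℂ) (i : κ) (f : MvPolynomial (κ × ι) ℂ) :
    Dr i (Top c f) = Top (c + Fintype.card ι) (Dr i f) := by
  have h1 : ∀ k, Dr i (qs k * Dr k f) =
      (if i = k then (Fintype.card ι : ℂ) • Dr k f else 0) + qs k * Dr k (Dr i f) := by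
    intro k
    rw [Dr_qs_mul, Dr_comm i k]
    split_ifs with h
    · rfl
    · rw [zero_smul]
  rw [Top_apply, Top_apply, map_add, map_smul, map_sum, Finset.sum_congr rfl fun k _ => h1 k,
    Finset.sum_add_distrib, Finset.sum_ite_eq, if_pos (Finset.mem_univ i), add_smul, add_assoc]

lemma fis_nonneg {σ : Type} (P : MvPolynomial σ ℂ) : ∃ r : ℝ, 0 ≤ r ∧ fis P P = (r : ℂ) := by
  refine ⟨_, ?_, fis_self_eq P⟩
  refine Finset.sum_nonneg fun m _ => mul_nonneg ?_ (Complex.normSq_nonneg _)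
  rw [Finsupp.prod]
  exact Finset.prod_nonneg fun j _ => by exact_mod_cast (Nat.zero_le _)

omit [Fintype κ] in
lemma fis_qs (i : κ) (P Q : MvPolynomial (κ × ι) ℂ) : fis P (qs i * Q) = fis (Dr i P) Q := by
  rw [Dr_apply, qs]
  exact fis_sum_X Finset.univ (fun j => (i, j)) P Q

lemma Top_inj {c : ℝ} (hc : 0 < c) {f : MvPolynomial (κ × ι) ℂ} (h : Top (c : ℂ) f = 0) :
    f = 0 := by
  have h1 : fis f (Top (c : ℂ) f) = (c : ℂ) * fis f f + ∑ k : κ, fis (Dr k f) (Dr k f) := by
    rw [Top_apply, fis_add_right, fis_smul_right, fis_sum_right]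
    congr 1
    exact Finset.sum_congr rfl fun k _ => fis_qs k _ _
  rw [h, fis_zero_right] at h1
  obtain ⟨r, hr, hr2⟩ := fis_nonneg f
  choose s hs hs2 using fun k : κ => fis_nonneg (Dr k f)
  rw [hr2, Finset.sum_congr rfl fun k _ => hs2 k] at h1
  have h2 : (0 : ℝ) = c * r + ∑ k, s k := by exact_mod_cast h1
  have h3 : 0 ≤ ∑ k, s k := Finset.sum_nonneg fun k _ => hs k
  have h4 : r = 0 := by
    by_contra hne
    have h5 : 0 < r := lt_of_le_of_ne hr (Ne.symm hne)
    have h6 := mul_pos hc h5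
    linarith
  apply fis_self
  rw [hr2, h4, Complex.ofReal_zero]

omit [Fintype κ] in
lemma qs_hom (k : κ) : (qs k : MvPolynomial (κ × ι) ℂ).IsHomogeneous 1 :=
  IsHomogeneous.sum _ _ _ fun _ _ => isHomogeneous_X _ _

lemma Top_hom (c : ℂ) (n : ℕ) {f : MvPolynomial (κ × ι) ℂ} (hf : f.IsHomogeneous n) :
    (Top c f).IsHomogeneous n := by
  rw [Top_apply]
  refine IsHomogeneous.add ?_ (IsHomogeneous.sum _ _ _ fun k _ => ?_)
  · rw [MvPolynomial.smul_eq_C_mul]
    exact hf.C_mul c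
  · rcases Nat.eq_zero_or_pos n with hn | hn
    · subst hn
      have h1 : Dr k f = 0 := by
        rw [Dr_apply]
        refine Finset.sum_eq_zero fun j _ => ?_
        have h2 := totalDegree_eq_zero_iff_eq_C.1 ((totalDegree_zero_iff_isHomogeneous _).2 hf)
        rw [h2, pderiv_C]
      rw [h1, mul_zero]
      exact isHomogeneous_zero _ _ _
    · have h1 : (Dr k f).IsHomogeneous (n - 1) := by
        rw [Dr_apply]
        exact IsHomogeneous.sum _ _ _ fun j _ => hf.pderiv
      have h2 := (qs_hom (ι := ι) k).mul h1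
      rwa [show 1 + (n - 1) = n by omega] at h2

lemma Top_surj_hom {c : ℝ} (hc : 0 < c) (n : ℕ) {f : MvPolynomial (κ × ι) ℂ}
    (hf : f.IsHomogeneous n) : ∃ g : MvPolynomial (κ × ι) ℂ, Top (c : ℂ) g = f := by
  have hfin : FiniteDimensional ℂ (homogeneousSubmodule (κ × ι) ℂ n) :=
    Module.Finite.iff_fg.2 (homogeneousSubmodule_fg (κ × ι) ℂ n)
  let L : homogeneousSubmodule (κ × ι) ℂ n →ₗ[ℂ] homogeneousSubmodule (κ × ι) ℂ n :=
    (Top (c : ℂ)).restrict fun g hg => Top_hom _ n hg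
  have hL : Function.Injective L := by
    rw [← LinearMap.ker_eq_bot, LinearMap.ker_eq_bot']
    intro g hg
    apply Subtype.ext
    exact Top_inj hc (congrArg Subtype.val hg)
  obtain ⟨g, hg⟩ := (LinearMap.injective_iff_surjective.1 hL) ⟨f, hf⟩
  exact ⟨g.1, congrArg Subtype.val hg⟩

lemma Top_surj {c : ℝ} (hc : 0 < c) (f : MvPolynomial (κ × ι) ℂ) :
    ∃ g : MvPolynomial (κ × ι) ℂ, Top (c : ℂ) g = f := by
  choose g hg using fun n : ℕ =>
    Top_surj_hom hc n (homogeneousComponent_isHomogeneous (R := ℂ) (σ := κ × ι) n f)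
  refine ⟨∑ n ∈ Finset.range (f.totalDegree + 1), g n, ?_⟩
  rw [map_sum, Finset.sum_congr rfl fun n _ => hg n]
  exact sum_homogeneousComponent f

/-- A closed family is exact. -/
theorem exact_of_closed (hM : 0 < Fintype.card ι) (d : κ → MvPolynomial (κ × ι) ℂ)
    (hd : ∀ i k, Dr i (d k) = Dr k (d i)) : ∃ e : MvPolynomial (κ × ι) ℂ, ∀ i, d i = Dr i e := by
  classical
  have hc : (0 : ℝ) < (Fintype.card ι : ℝ) := by exact_mod_cast hM
  choose g hg using fun k : κ => Top_surj hc (d k)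
  have hcast : (((Fintype.card ι : ℝ)) : ℂ) = (Fintype.card ι : ℂ) := by push_cast; rfl
  have h1 : ∀ i k, Dr i (g k) = Dr k (g i) := by
    intro i k
    have h2 : Top (((Fintype.card ι : ℝ) + (Fintype.card ι : ℝ) : ℝ) : ℂ)
        (Dr i (g k) - Dr k (g i)) = 0 := by
      have h3 := Dr_Top (Fintype.card ι : ℂ) i (g k)
      have h4 := Dr_Top (Fintype.card ι : ℂ) k (g i)
      rw [← hcast, hg] at h3 h4
      rw [map_sub, Complex.ofReal_add, hcast, sub_eq_zero]
      rw [hcast] at h3 h4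
      rw [← h3, ← h4]
      exact hd i k
    exact sub_eq_zero.1 (Top_inj (by positivity) h2)
  refine ⟨∑ k, qs k * g k, fun i => ?_⟩
  have h5 : ∀ k, Dr i (qs k * g k) =
      (if i = k then (Fintype.card ι : ℂ) • g k else 0) + qs k * Dr k (g i) := by
    intro k
    rw [Dr_qs_mul, h1 i k]
    split_ifs with h
    · rfl
    · rw [zero_smul]
  rw [map_sum, Finset.sum_congr rfl fun k _ => h5 k, Finset.sum_add_distrib, Finset.sum_ite_eq,
    if_pos (Finset.mem_univ i), ← hg i, hcast, Top_apply]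

/-- A closed family is orthogonal to the syzygies of the `q_i`. -/
theorem fis_closed (hM : 0 < Fintype.card ι) (d h : κ → MvPolynomial (κ × ι) ℂ)
    (hd : ∀ i k, Dr i (d k) = Dr k (d i)) (hh : ∑ i, qs i * h i = 0) :
    ∑ i, fis (d i) (h i) = 0 := by
  obtain ⟨e, he⟩ := exact_of_closed hM d hd
  have h1 : ∀ i, fis (d i) (h i) = fis e (qs i * h i) := by
    intro i
    rw [fis_qs, ← he i]
  rw [Finset.sum_congr rfl fun i _ => h1 i, ← fis_sum_right, hh, fis_zero_right]

end

end Vale.Agent.P181.GN.H242
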