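import Vale.Agent.P181.GN.Defs
import Vale.Agent.P181.GN.H242.Kos
import Vale.Agent.P181.TW.T5.A

set_option autoImplicit false

/-!
# P181, GN, (Q1): `T(y) + dim EE (y + 1) ≤ T(y + 1)`
-/

open MvPolynomial

namespace Vale.Agent.P181.GN.H242

open Vale.Agent.P181.H583
open Vale.Agent.P181.T4 (HW mem_HW)
open Vale.Agent.P181.SZ (TI mem_TI)
open Vale.Agent.P181.SZT0 (rc inj_pr rc_mem_HW coeff_rc)
open Vale.Agent.P181.DG6.H887 (lsub lsub_X lsub_mem_HW tr_lsub eval_lsub der_comm)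
open Vale.Agent.P181.TW.T5

/-! ### The Fischer form and renaming -/

lemma wt_map {σ τ : Type} (φ : σ → τ) (hφ : Function.Injective φ) (v : σ →₀ ℕ) :
    wt (v.mapDomain φ) = wt v := by
  rw [wt, wt]
  exact Finsupp.prod_mapDomain_index_inj hφ

lemma fis_rename {σ τ : Type} (φ : σ → τ) (hφ : Function.Injective φ) (P Q : MvPolynomial σ ℂ) :
    fis (rename φ P) (rename φ Q) = fis P Q := by
  classical
  induction P using MvPolynomial.induction_on' with
  | add P P' h h' => rw [map_add, fis_add_left, fis_add_left, h, h']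
  | monomial u a =>
    induction Q using MvPolynomial.induction_on' with
    | add Q Q' h h' => rw [map_add, fis_add_right, fis_add_right, h, h']
    | monomial v b =>
      rw [rename_monomial, rename_monomial, fis_monomial, fis_monomial, wt_map φ hφ]
      have h1 : u.mapDomain φ = v.mapDomain φ ↔ u = v :=
        ⟨fun h => Finsupp.mapDomain_injective hφ h, fun h => by rw [h]⟩
      simp only [h1]

lemma sg0 {σ : Type} {a b : σ} (h : a ≠ b) : (Finsupp.single a 1 : σ →₀ ℕ) b = 0 := by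
  classical
  rw [Finsupp.single_apply, if_neg h]

variable {m M : ℕ}

/-! ### The last column -/

lemma pd_X_col {κ : Type} [Fintype κ] (i : Fin m) (p : Fin m × κ) :
    (∑ j : κ, pderiv (R := ℂ) (i, j) : Derivation ℂ (MvPolynomial (Fin m × κ) ℂ) _) (X p) =
      if p.1 = i then 1 else 0 := by
  classical
  rw [SZR3.der_sum]
  obtain ⟨k, c⟩ := p
  by_cases h : k = i
  · subst h
    rw [if_pos rfl, Finset.sum_eq_single c]
    · exact pderiv_X_self _
    · intro l _ hl
      exact pderiv_X_of_ne fun e => hl (congrArg Prod.snd e).symm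
    · intro h'
      exact absurd (Finset.mem_univ _) h'
  · rw [if_neg h]
    exact Finset.sum_eq_zero fun l _ => pderiv_X_of_ne fun e => h (congrArg Prod.fst e)

lemma Dr_rc {κ κ' : Type} [Fintype κ] [Fintype κ'] (φ : κ → κ') (i : Fin m)
    (f : MvPolynomial (Fin m × κ) ℂ) : Dr i (rc m φ f) = rc m φ (Dr i f) := by
  have h := der_comm (rc m φ) (∑ j : κ, pderiv (R := ℂ) (i, j))
    (∑ j : κ', pderiv (R := ℂ) (i, j)) (fun p => ?_) f
  · rw [SZR3.der_sum, SZR3.der_sum] at h
    rw [Dr_apply, Dr_apply]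
    exact h
  · have h1 : rc m φ (X p) = (X (p.1, φ p.2) : MvPolynomial (Fin m × κ') ℂ) := rename_X _ _
    rw [h1, pd_X_col, pd_X_col]
    split_ifs <;> simp

/-- The last column is set to zero. -/
noncomputable def Zl : MvPolynomial (Fin m × Fin (M + 1)) ℂ →ₐ[ℂ] MvPolynomial (Fin m × Fin M) ℂ :=
  lsub m (Z0 M)

lemma rc_Zl (f : MvPolynomial (Fin m × Fin (M + 1)) ℂ) :
    rc m Fin.castSucc (Zl f) = kz m (Fin.last M) f := by
  have h : (rc m (Fin.castSucc : Fin M → Fin (M + 1))).comp Zl = kz m (Fin.last M) := by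
    apply MvPolynomial.algHom_ext
    rintro ⟨i, j⟩
    rw [AlgHom.comp_apply, Zl, lsub_X, kz_eq, aeval_X, map_sum]
    induction j using Fin.lastCases with
    | last =>
      rw [if_pos rfl]
      refine Finset.sum_eq_zero fun c _ => ?_
      have h1 : Z0 M (Fin.last M) c = 0 := by
        rw [Z0, if_neg (Fin.castSucc_lt_last c).ne']
      change rc m _ (C (Z0 M (Fin.last M) c) * _) = 0
      rw [h1, C_0, zero_mul, map_zero]
    | cast j =>
      rw [if_neg (Fin.castSucc_lt_last j).ne, Finset.sum_eq_single j]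
      · have h1 : Z0 M j.castSucc j = 1 := by rw [Z0, if_pos rfl]
        change rc m _ (C (Z0 M j.castSucc j) * _) = _
        rw [h1, C_1, one_mul, rc, rename_X]
      · intro c _ hc
        have h1 : Z0 M j.castSucc c = 0 := by
          rw [Z0, if_neg fun h' => hc (Fin.castSucc_injective M h').symm]
        change rc m _ (C (Z0 M j.castSucc c) * _) = 0
        rw [h1, C_0, zero_mul, map_zero]
      · intro h'
        exact absurd (Finset.mem_univ _) h'
  exact congrArg (fun φ => φ f) h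

lemma coeff_Zl (f : MvPolynomial (Fin m × Fin (M + 1)) ℂ) (v : Fin m × Fin M →₀ ℕ) :
    coeff v (Zl f) =
      coeff (v.mapDomain fun p : Fin m × Fin M => (p.1, p.2.castSucc)) f := by
  classical
  have hi := inj_pr (m := m) (Fin.castSucc_injective M)
  rw [← coeff_rename_mapDomain _ hi (Zl f) v]
  change coeff _ (rc m Fin.castSucc (Zl f)) = _
  rw [rc_Zl, coeff_kz, if_pos]
  intro i
  apply Finsupp.mapDomain_of_notMem_range
  rintro ⟨⟨a, b⟩, hab⟩
  exact (Fin.castSucc_lt_last b).ne (congrArg Prod.snd hab)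

lemma pd_Zl (i : Fin m) (c : Fin M) (f : MvPolynomial (Fin m × Fin (M + 1)) ℂ) :
    pderiv (i, c) (Zl f) = Zl (pderiv (i, c.castSucc) f) := by
  classical
  apply MvPolynomial.ext
  intro v
  rw [coeff_pderiv, coeff_Zl, coeff_Zl, coeff_pderiv]
  have h1 : (v + Finsupp.single (i, c) 1).mapDomain
      (fun p : Fin m × Fin M => (p.1, p.2.castSucc)) =
      v.mapDomain (fun p : Fin m × Fin M => (p.1, p.2.castSucc)) +
        Finsupp.single (i, c.castSucc) 1 := by
    rw [Finsupp.mapDomain_add, Finsupp.mapDomain_single]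
  have h2 : v.mapDomain (fun p : Fin m × Fin M => (p.1, p.2.castSucc)) (i, c.castSucc) =
      v (i, c) := Finsupp.mapDomain_apply (inj_pr (m := m) (Fin.castSucc_injective M)) v (i, c)
  rw [h1, h2]

/-! ### `EE` -/

variable {mu : Fin m → ℕ}

lemma mem_EE {y : ℕ} {f : MvPolynomial (Fin m × Fin y) ℂ} :
    f ∈ EE y m mu ↔ f ∈ HW m (Fin y) mu ∧
    (∀ e : Equiv.Perm (Fin y), rename (fun p : Fin m × Fin y => (p.1, e p.2)) f = f) ∧
    (∀ v, coeff v f ≠ 0 → ∀ j, 1 ≤ ∑ i, v (i, j)) ∧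
    ∀ i v, (∀ j, 1 ≤ ∑ i', v (i', j)) → coeff v (∑ j, pderiv (i, j) f) = 0 := Iff.rfl

instance finiteDimensional_EE (y : ℕ) : FiniteDimensional ℂ (EE y m mu) :=
  Submodule.finiteDimensional_of_le (S₂ := HW m (Fin y) mu) fun _ h => h.1

/-- Every monomial of `D_i F` has exactly one empty column. -/
lemma one_empty {F : MvPolynomial (Fin m × Fin (M + 1)) ℂ} (hF : F ∈ EE (M + 1) m mu) (i : Fin m)
    (v : Fin m × Fin (M + 1) →₀ ℕ) (hv : coeff v (Dr i F) ≠ 0) :
    ∃ k, (∀ i', v (i', k) = 0) ∧ ∀ l, l ≠ k → ¬ ∀ i', v (i', l) = 0 := by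
  classical
  obtain ⟨h1, h2, h3, h4⟩ := mem_EE.1 hF
  rw [Dr_apply] at hv
  have h5 : ∃ k, ¬ 1 ≤ ∑ i', v (i', k) := by
    by_contra hc
    push Not at hc
    exact hv (h4 i v hc)
  obtain ⟨k, hk⟩ := h5
  have hk0 : ∀ i', v (i', k) = 0 := by
    have h6 : ∑ i', v (i', k) = 0 := by omega
    intro i'
    exact (Finset.sum_eq_zero_iff.1 h6) i' (Finset.mem_univ _)
  refine ⟨k, hk0, fun l hl hl0 => ?_⟩
  rw [coeff_sum] at hv
  obtain ⟨j, _, hj⟩ := Finset.exists_ne_zero_of_sum_ne_zero hv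
  rw [coeff_pderiv] at hj
  have h6 := h3 _ (left_ne_zero_of_mul hj)
  have h7 : ∀ c : Fin (M + 1), (∀ i', v (i', c) = 0) → c = j := by
    intro c hc
    by_contra hne
    have h8 := h6 c
    have h9 : ∑ i', (v + Finsupp.single (i, j) 1 : Fin m × Fin (M + 1) →₀ ℕ) (i', c) = 0 := by
      refine Finset.sum_eq_zero fun i' _ => ?_
      rw [Finsupp.add_apply, hc i', sg0 fun e => hne (congrArg Prod.snd e).symm, add_zero]
    omega
  exact hl ((h7 l hl0).trans (h7 k hk0).symm)

lemma Dr_Zl (i : Fin m) (f : MvPolynomial (Fin m × Fin (M + 1)) ℂ) :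
    Dr i (Zl f) = Zl (Dr i f) - Zl (pderiv (i, Fin.last M) f) := by
  rw [Dr_apply, Dr_apply, Fin.sum_univ_castSucc, map_add, add_sub_cancel_right, map_sum]
  exact Finset.sum_congr rfl fun c _ => pd_Zl i c f

/-- All columns are used. -/
lemma coeff_full {F : MvPolynomial (Fin m × Fin (M + 1)) ℂ} (hF : F ∈ EE (M + 1) m mu)
    (i k : Fin m) (w : Fin m × Fin (M + 1) →₀ ℕ)
    (hall : ∀ c : Fin M, 1 ≤ ∑ i', w (i', c.castSucc)) :
    coeff (w + Finsupp.single (i, Fin.last M) 1) (Dr k F) = 0 := by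
  classical
  rw [Dr_apply]
  refine (mem_EE.1 hF).2.2.2 k _ fun j => ?_
  induction j using Fin.lastCases with
  | last =>
    have h1 : (w + Finsupp.single (i, Fin.last M) 1 : Fin m × Fin (M + 1) →₀ ℕ) (i, Fin.last M) ≤
        ∑ i', (w + Finsupp.single (i, Fin.last M) 1 : Fin m × Fin (M + 1) →₀ ℕ)
          (i', Fin.last M) :=
      Finset.single_le_sum (f := fun i' =>
        (w + Finsupp.single (i, Fin.last M) 1 : Fin m × Fin (M + 1) →₀ ℕ) (i', Fin.last M))
        (fun _ _ => Nat.zero_le _) (Finset.mem_univ i)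
    have h2 : (w + Finsupp.single (i, Fin.last M) 1 : Fin m × Fin (M + 1) →₀ ℕ)
        (i, Fin.last M) = w (i, Fin.last M) + 1 := by
      rw [Finsupp.add_apply, Finsupp.single_eq_same]
    omega
  | cast c =>
    refine le_trans (hall c) (Finset.sum_le_sum fun i' _ => ?_)
    rw [Finsupp.add_apply]
    exact Nat.le_add_right _ _

/-- One column is empty. -/
lemma coeff_empty {F : MvPolynomial (Fin m × Fin (M + 1)) ℂ} (hF : F ∈ EE (M + 1) m mu)
    (i k : Fin m) (w : Fin m × Fin (M + 1) →₀ ℕ) (c : Fin M)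
    (hwc : ∀ i', w (i', c.castSucc) = 0) :
    coeff (w + Finsupp.single (i, Fin.last M) 1) (Dr k F) =
      coeff (w + Finsupp.single (i, Fin.last M) 1 + Finsupp.single (k, c.castSucc) 1) F := by
  classical
  have hcl : c.castSucc ≠ Fin.last M := (Fin.castSucc_lt_last c).ne
  rw [Dr_apply, coeff_sum, Finset.sum_eq_single c.castSucc]
  · have h1 : (w + Finsupp.single (i, Fin.last M) 1 : Fin m × Fin (M + 1) →₀ ℕ)
        (k, c.castSucc) = 0 := by
      rw [Finsupp.add_apply, hwc k, sg0 fun e => hcl (congrArg Prod.snd e).symm]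
    rw [coeff_pderiv, h1]
    simp
  · intro j _ hj
    rw [coeff_pderiv]
    by_contra hne
    have h6 := (mem_EE.1 hF).2.2.1 _ (left_ne_zero_of_mul hne) c.castSucc
    have h7 : ∑ i', (w + Finsupp.single (i, Fin.last M) 1 + Finsupp.single (k, j) 1 :
        Fin m × Fin (M + 1) →₀ ℕ) (i', c.castSucc) = 0 := by
      refine Finset.sum_eq_zero fun i' _ => ?_
      rw [Finsupp.add_apply, Finsupp.add_apply, hwc i',
        sg0 fun e => hcl (congrArg Prod.snd e).symm, sg0 fun e => hj (congrArg Prod.snd e),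
        add_zero, add_zero]
    omega
  · intro h'
    exact absurd (Finset.mem_univ _) h'

/-- The exchange of two columns. -/
lemma coeff_swap {F : MvPolynomial (Fin m × Fin (M + 1)) ℂ}
    (h2 : ∀ e : Equiv.Perm (Fin (M + 1)),
      rename (fun p : Fin m × Fin (M + 1) => (p.1, e p.2)) F = F)
    (i k : Fin m) (w : Fin m × Fin (M + 1) →₀ ℕ) (c l : Fin (M + 1))
    (hwc : ∀ i', w (i', c) = 0) (hwl : ∀ i', w (i', l) = 0) :
    coeff (w + Finsupp.single (i, l) 1 + Finsupp.single (k, c) 1) F =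
      coeff (w + Finsupp.single (k, l) 1 + Finsupp.single (i, c) 1) F := by
  classical
  have hs : Function.Injective
      (fun p : Fin m × Fin (M + 1) => (p.1, Equiv.swap c l p.2)) :=
    inj_pr (Equiv.injective _)
  have h6 := coeff_rename_mapDomain _ hs F
    (w + Finsupp.single (i, l) 1 + Finsupp.single (k, c) 1)
  have e3 : w.mapDomain (fun p : Fin m × Fin (M + 1) => (p.1, Equiv.swap c l p.2)) = w := by
    ext ⟨i', j⟩
    have h7 : w.mapDomain (fun p : Fin m × Fin (M + 1) => (p.1, Equiv.swap c l p.2))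
        (i', Equiv.swap c l (Equiv.swap c l j)) = w (i', Equiv.swap c l j) :=
      Finsupp.mapDomain_apply hs w (i', Equiv.swap c l j)
    rw [Equiv.swap_apply_self] at h7
    rw [h7]
    by_cases hj1 : j = c
    · rw [hj1, Equiv.swap_apply_left, hwl, hwc]
    · by_cases hj2 : j = l
      · rw [hj2, Equiv.swap_apply_right, hwl, hwc]
      · rw [Equiv.swap_apply_of_ne_of_ne hj1 hj2]
  rw [h2 (Equiv.swap c l), Finsupp.mapDomain_add, Finsupp.mapDomain_add,
    Finsupp.mapDomain_single, Finsupp.mapDomain_single, e3] at h6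
  dsimp only at h6
  rw [Equiv.swap_apply_right, Equiv.swap_apply_left] at h6
  rw [← h6, add_assoc, add_assoc, add_comm (Finsupp.single (i, c) 1)]

lemma coeff_key {F : MvPolynomial (Fin m × Fin (M + 1)) ℂ} (hF : F ∈ EE (M + 1) m mu)
    (i k : Fin m) (w : Fin m × Fin (M + 1) →₀ ℕ) (hwl : ∀ i', w (i', Fin.last M) = 0) :
    coeff (w + Finsupp.single (i, Fin.last M) 1) (Dr k F) =
      coeff (w + Finsupp.single (k, Fin.last M) 1) (Dr i F) := by
  classical
  by_cases hall : ∀ c : Fin M, 1 ≤ ∑ i', w (i', c.castSucc)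
  · rw [coeff_full hF i k w hall, coeff_full hF k i w hall]
  · push Not at hall
    obtain ⟨c, hc⟩ := hall
    have hwc : ∀ i', w (i', c.castSucc) = 0 := by
      have h6 : ∑ i', w (i', c.castSucc) = 0 := by omega
      intro i'
      exact (Finset.sum_eq_zero_iff.1 h6) i' (Finset.mem_univ _)
    rw [coeff_empty hF i k w c hwc, coeff_empty hF k i w c hwc]
    exact coeff_swap (mem_EE.1 hF).2.1 i k w _ _ hwc hwl

lemma Zl_key {F : MvPolynomial (Fin m × Fin (M + 1)) ℂ} (hF : F ∈ EE (M + 1) m mu)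
    (i k : Fin m) : Zl (pderiv (i, Fin.last M) (Dr k F)) =
      Zl (pderiv (k, Fin.last M) (Dr i F)) := by
  apply MvPolynomial.ext
  intro v
  have hwl : ∀ i', v.mapDomain (fun p : Fin m × Fin M => (p.1, p.2.castSucc))
      (i', Fin.last M) = 0 := by
    intro i'
    apply Finsupp.mapDomain_of_notMem_range
    rintro ⟨⟨a, b⟩, hab⟩
    exact (Fin.castSucc_lt_last b).ne (congrArg Prod.snd hab)
  rw [coeff_Zl, coeff_Zl, coeff_pderiv, coeff_pderiv, coeff_key hF i k _ hwl, hwl i, hwl k]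

/-- The family `Z (D_i F)` is closed. -/
lemma closed {F : MvPolynomial (Fin m × Fin (M + 1)) ℂ} (hF : F ∈ EE (M + 1) m mu)
    (i k : Fin m) : Dr i (Zl (Dr k F)) = Dr k (Zl (Dr i F)) := by
  rw [Dr_Zl, Dr_Zl, Dr_comm i k, Zl_key hF i k]

/-! ### The Fischer form and the last column -/

lemma fis_kz (j : Fin M) (P H : MvPolynomial (Fin m × Fin M) ℂ) :
    fis (kz m j P) H = fis (kz m j P) (kz m j H) := by
  classical
  rw [← sub_eq_zero, ← fis_sub_right]
  refine fis_disjoint _ _ fun v hv => ?_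
  rw [coeff_kz] at hv
  have h1 : ∀ i, v (i, j) = 0 := by
    by_contra hc
    rw [if_neg hc] at hv
    exact hv rfl
  rw [coeff_sub, coeff_kz, if_pos h1, sub_self]

lemma fis_last (P H : MvPolynomial (Fin m × Fin (M + 1)) ℂ) :
    fis (kz m (Fin.last M) P) H = fis (Zl P) (Zl H) := by
  rw [fis_kz, ← rc_Zl, ← rc_Zl]
  exact fis_rename _ (inj_pr (m := m) (Fin.castSucc_injective M)) _ _

lemma fis_sym {P H : MvPolynomial (Fin m × Fin (M + 1)) ℂ}
    (hP : ∀ e : Equiv.Perm (Fin (M + 1)),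
      rename (fun p : Fin m × Fin (M + 1) => (p.1, e p.2)) P = P)
    (hH : ∀ e : Equiv.Perm (Fin (M + 1)),
      rename (fun p : Fin m × Fin (M + 1) => (p.1, e p.2)) H = H) (k : Fin (M + 1)) :
    fis (kz m k P) H = fis (Zl P) (Zl H) := by
  have h1 := fis_rename (fun p : Fin m × Fin (M + 1) => (p.1, Equiv.swap k (Fin.last M) p.2))
    (inj_pr (Equiv.injective _)) (kz m k P) H
  rw [rename_kz, hP, hH, Equiv.swap_apply_left, fis_last] at h1
  exact h1.symm

lemma fis_one_empty {P H : MvPolynomial (Fin m × Fin (M + 1)) ℂ}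
    (hP : ∀ e : Equiv.Perm (Fin (M + 1)),
      rename (fun p : Fin m × Fin (M + 1) => (p.1, e p.2)) P = P)
    (hH : ∀ e : Equiv.Perm (Fin (M + 1)),
      rename (fun p : Fin m × Fin (M + 1) => (p.1, e p.2)) H = H)
    (h1 : ∀ v, coeff v P ≠ 0 →
      ∃ k, (∀ i', v (i', k) = 0) ∧ ∀ l, l ≠ k → ¬ ∀ i', v (i', l) = 0) :
    fis P H = ((M + 1 : ℕ) : ℂ) * fis (Zl P) (Zl H) := by
  classical
  have h2 : P = ∑ k, kz m k P := by
    apply MvPolynomial.ext
    intro v
    rw [coeff_sum]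
    by_cases hv : coeff v P = 0
    · rw [hv]
      symm
      refine Finset.sum_eq_zero fun k _ => ?_
      rw [coeff_kz, hv]
      split_ifs <;> rfl
    · obtain ⟨k, hk, hk2⟩ := h1 v hv
      rw [Finset.sum_eq_single k]
      · rw [coeff_kz, if_pos hk]
      · intro l _ hl
        rw [coeff_kz, if_neg (hk2 l hl)]
      · intro h'
        exact absurd (Finset.mem_univ _) h'
  have h3 : fis P H = ∑ k : Fin (M + 1), fis (kz m k P) H := by
    conv_lhs => rw [h2]
    exact fis_sum_left _ _ _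
  rw [h3, Finset.sum_congr rfl fun k _ => fis_sym hP hH k, Finset.sum_const, Finset.card_univ,
    Fintype.card_fin, nsmul_eq_mul]

lemma Zl_qs (i : Fin m) :
    Zl (qs i : MvPolynomial (Fin m × Fin (M + 1)) ℂ) = (qs i : MvPolynomial (Fin m × Fin M) ℂ) := by
  have hinj := rename_injective (R := ℂ) _ (inj_pr (m := m) (Fin.castSucc_injective M))
  apply hinj
  change rc m Fin.castSucc (Zl _) = rc m Fin.castSucc _
  rw [rc_Zl, qs, qs, map_sum, map_sum, Fin.sum_univ_castSucc, kz_eq]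
  simp only [aeval_X]
  rw [if_pos trivial, add_zero]
  refine Finset.sum_congr rfl fun c _ => ?_
  rw [if_neg (Fin.castSucc_lt_last c).ne, rc, rename_X]

lemma Zl_EE {F : MvPolynomial (Fin m × Fin (M + 1)) ℂ} (hF : F ∈ EE (M + 1) m mu) :
    Zl F = 0 := by
  apply MvPolynomial.ext
  intro v
  rw [coeff_Zl, coeff_zero]
  by_contra hne
  have h1 := (mem_EE.1 hF).2.2.1 _ hne (Fin.last M)
  have h2 : ∑ i, v.mapDomain (fun p : Fin m × Fin M => (p.1, p.2.castSucc))
      (i, Fin.last M) = 0 := by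
    refine Finset.sum_eq_zero fun i _ => ?_
    apply Finsupp.mapDomain_of_notMem_range
    rintro ⟨⟨a, b⟩, hab⟩
    exact (Fin.castSucc_lt_last b).ne (congrArg Prod.snd hab)
  omega

/-! ### The ideal of the `q_i` -/

/-- The ideal of the `q_i`. -/
noncomputable def Iq (m N : ℕ) : Ideal (MvPolynomial (Fin m × Fin N) ℂ) :=
  Ideal.span (Set.range fun v : Fin m => ∑ j ∈ (Finset.univ : Finset (Fin N)),
    (X (v, j) : MvPolynomial (Fin m × Fin N) ℂ))

lemma mk_cen {N : ℕ} (f : MvPolynomial (Fin m × Fin N) ℂ) : f - lsub m (cen N) f ∈ Iq m N := by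
  classical
  have h : (Ideal.Quotient.mkₐ ℂ (Iq m N)).comp (lsub m (cen N)) =
      Ideal.Quotient.mkₐ ℂ (Iq m N) := by
    apply MvPolynomial.algHom_ext
    rintro ⟨i, j⟩
    rw [AlgHom.comp_apply, lsub_X]
    have h1 : ∑ c, C (cen N j c) * (X (i, c) : MvPolynomial (Fin m × Fin N) ℂ) =
        X (i, j) - C ((N : ℂ)⁻¹) * ∑ c, X (i, c) := by
      simp only [cen, map_sub, sub_mul, Finset.sum_sub_distrib]
      rw [Finset.mul_sum]
      congr 1
      rw [Finset.sum_eq_single j]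
      · rw [if_pos rfl, C_1, one_mul]
      · intro c _ hc
        rw [if_neg (Ne.symm hc), C_0, zero_mul]
      · intro h'
        exact absurd (Finset.mem_univ _) h'
    change Ideal.Quotient.mk (Iq m N) (∑ c, C (cen N j c) * X (i, c)) =
      Ideal.Quotient.mk (Iq m N) (X (i, j))
    rw [h1, Ideal.Quotient.eq, sub_sub_cancel_left]
    refine neg_mem (Ideal.mul_mem_left _ _ (Ideal.subset_span ⟨i, rfl⟩))
  have h2 := congrArg (fun φ => φ f) h
  rw [← Ideal.Quotient.eq]
  exact h2.symm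

lemma rename_qs {N : ℕ} (e : Equiv.Perm (Fin N)) (i : Fin m) :
    rename (fun p : Fin m × Fin N => (p.1, e p.2)) (qs i : MvPolynomial (Fin m × Fin N) ℂ) =
      qs i := by
  rw [qs, map_sum]
  simp only [rename_X]
  exact Equiv.sum_comp e fun j => (X (i, j) : MvPolynomial (Fin m × Fin N) ℂ)

/-- A symmetric element of the ideal. -/
lemma exists_sym {N : ℕ} {F : MvPolynomial (Fin m × Fin N) ℂ} (hF : F ∈ Iq m N)
    (h2 : ∀ e : Equiv.Perm (Fin N), rename (fun p : Fin m × Fin N => (p.1, e p.2)) F = F) :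
    ∃ H : Fin m → MvPolynomial (Fin m × Fin N) ℂ,
      (∀ i, ∀ e : Equiv.Perm (Fin N),
        rename (fun p : Fin m × Fin N => (p.1, e p.2)) (H i) = H i) ∧
      F = ∑ i, qs i * H i := by
  classical
  obtain ⟨G, hG⟩ := (Submodule.mem_span_range_iff_exists_fun _).1 hF
  have hG' : ∑ i, qs i * G i = F := by
    rw [← hG]
    exact Finset.sum_congr rfl fun i _ => by rw [smul_eq_mul, mul_comm, qs]
  let n : ℂ := (Fintype.card (Equiv.Perm (Fin N)) : ℂ)
  have hn : n ≠ 0 := Nat.cast_ne_zero.2 Fintype.card_ne_zero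
  refine ⟨fun i => n⁻¹ • ∑ e : Equiv.Perm (Fin N),
    rename (fun p : Fin m × Fin N => (p.1, e p.2)) (G i), fun i e => ?_, ?_⟩
  · rw [map_smul, map_sum]
    congr 1
    have h3 : ∀ e' : Equiv.Perm (Fin N), rename (fun p : Fin m × Fin N => (p.1, e p.2))
        (rename (fun p : Fin m × Fin N => (p.1, e' p.2)) (G i)) =
        rename (fun p : Fin m × Fin N => (p.1, (e * e') p.2)) (G i) := by
      intro e'
      rw [rename_rename]
      rfl
    rw [Finset.sum_congr rfl fun e' _ => h3 e']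
    exact Equiv.sum_comp (Equiv.mulLeft e) fun e' : Equiv.Perm (Fin N) =>
      rename (fun p : Fin m × Fin N => (p.1, e' p.2)) (G i)
  · have h3 : ∀ e : Equiv.Perm (Fin N),
        ∑ i, qs i * rename (fun p : Fin m × Fin N => (p.1, e p.2)) (G i) = F := by
      intro e
      rw [← h2 e, ← hG', map_sum]
      exact Finset.sum_congr rfl fun i _ => by rw [map_mul, rename_qs]
    have h4 : ∑ i, qs i * (n⁻¹ • ∑ e : Equiv.Perm (Fin N),
        rename (fun p : Fin m × Fin N => (p.1, e p.2)) (G i)) =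
        n⁻¹ • ∑ e : Equiv.Perm (Fin N),
          ∑ i, qs i * rename (fun p : Fin m × Fin N => (p.1, e p.2)) (G i) := by
      rw [Finset.sum_comm, Finset.smul_sum]
      exact Finset.sum_congr rfl fun i _ => by rw [mul_smul_comm, Finset.mul_sum]
    rw [h4, Finset.sum_congr rfl fun e _ => h3 e, Finset.sum_const, Finset.card_univ,
      ← Nat.cast_smul_eq_nsmul ℂ, smul_smul, inv_mul_cancel₀ hn, one_smul]

/-- **The core**: `EE` does not meet the ideal. -/
theorem eq_zero_of_ideal (hM : 1 ≤ M) {F : MvPolynomial (Fin m × Fin (M + 1)) ℂ}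
    (hF : F ∈ EE (M + 1) m mu) (hI : F ∈ Iq m (M + 1)) : F = 0 := by
  obtain ⟨h1, h2, h3, h4⟩ := mem_EE.1 hF
  obtain ⟨H, hH, hFH⟩ := exists_sym hI h2
  apply fis_self
  have h5 : fis F F = ∑ i, fis (Dr i F) (H i) := by
    conv_lhs => rw [hFH]
    rw [fis_sum_right]
    rw [← hFH]
    exact Finset.sum_congr rfl fun i _ => fis_qs i _ _
  have hs : ∀ i, ∀ e : Equiv.Perm (Fin (M + 1)),
      rename (fun p : Fin m × Fin (M + 1) => (p.1, e p.2)) (Dr i F) = Dr i F := by
    intro i e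
    have h6 := Dr_rc (m := m) (fun j => e j) i F
    change Dr i (rename (fun p : Fin m × Fin (M + 1) => (p.1, e p.2)) F) =
      rename (fun p : Fin m × Fin (M + 1) => (p.1, e p.2)) (Dr i F) at h6
    rw [← h6, h2 e]
  have h6 : ∑ i, (qs i : MvPolynomial (Fin m × Fin M) ℂ) * Zl (H i) = 0 := by
    rw [← Zl_EE hF]
    conv_rhs => rw [hFH]
    rw [map_sum]
    exact Finset.sum_congr rfl fun i _ => by rw [map_mul, Zl_qs]
  have h7 := fis_closed (κ := Fin m) (ι := Fin M) (by rw [Fintype.card_fin]; omega)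
    (fun i => Zl (Dr i F)) (fun i => Zl (H i)) (fun i k => closed hF i k) h6
  rw [h5, Finset.sum_congr rfl fun i _ => fis_one_empty (hs i) (hH i) (one_empty hF i),
    ← Finset.mul_sum, h7, mul_zero]

/-! ### The two maps -/

lemma up_mem_TI {f : MvPolynomial (Fin m × Fin M) ℂ} (hf : f ∈ TI M (∑ i, mu i) m mu) :
    up f ∈ TI (M + 1) (∑ i, mu i) m mu := by
  obtain ⟨h1, h2, h3, h4⟩ := mem_TI.1 hf
  have hHW : up f ∈ HW m (Fin (M + 1)) mu := up_mem_HW h1
  refine mem_TI.2 ⟨hHW, fun e => up_sym h2 e, fun v hv j => ?_, fun i => ?_⟩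
  · rw [← Finset.sum_congr rfl fun i _ => hHW.1 v hv i, Finset.sum_comm]
    exact Finset.single_le_sum (f := fun j => ∑ i, v (i, j)) (fun _ _ => Nat.zero_le _)
      (Finset.mem_univ j)
  · rw [← Dr_apply, up, map_sum]
    refine Finset.sum_eq_zero fun k _ => ?_
    rw [Dr_rc, Dr_apply, h4 i, map_zero]

lemma cen_mem_TI {F : MvPolynomial (Fin m × Fin (M + 1)) ℂ} (hF : F ∈ EE (M + 1) m mu) :
    lsub m (cen (M + 1)) F ∈ TI (M + 1) (∑ i, mu i) m mu := by
  obtain ⟨h1, h2, -, -⟩ := mem_EE.1 hF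
  have hHW : lsub m (cen (M + 1)) F ∈ HW m (Fin (M + 1)) mu := lsub_mem_HW _ h1
  refine mem_TI.2 ⟨hHW, fun e => ?_, fun v hv j => ?_, fun i => ?_⟩
  · rw [rename_lsub_cen, h2 e]
  · rw [← Finset.sum_congr rfl fun i _ => hHW.1 v hv i, Finset.sum_comm]
    exact Finset.single_le_sum (f := fun j => ∑ i, v (i, j)) (fun _ _ => Nat.zero_le _)
      (Finset.mem_univ j)
  · exact tr_lsub (cen (M + 1)) (id : Fin (M + 1) → Fin (M + 1))
      (fun j => sum_cen (by omega) j) i F

/-- A monomial of `up g` has an empty column. -/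
lemma up_empty {g : MvPolynomial (Fin m × Fin M) ℂ} (v : Fin m × Fin (M + 1) →₀ ℕ)
    (hv : coeff v (up g) ≠ 0) : ∃ k, ∑ i, v (i, k) = 0 := by
  rw [up, coeff_sum] at hv
  obtain ⟨k, _, hk⟩ := Finset.exists_ne_zero_of_sum_ne_zero hv
  obtain ⟨u, -, -, hu2⟩ := coeff_rc (ins_inj k) hk
  refine ⟨k, Finset.sum_eq_zero fun i _ => hu2 i k ?_⟩
  rintro ⟨c, hc⟩
  have h1 : (Equiv.swap k (Fin.last M)) c.castSucc = (Equiv.swap k (Fin.last M)) (Fin.last M) := by
    rw [Equiv.swap_apply_right]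
    exact hc
  exact (Fin.castSucc_lt_last c).ne ((Equiv.swap k (Fin.last M)).injective h1)

lemma core (hM : 1 ≤ M) {g : MvPolynomial (Fin m × Fin M) ℂ}
    {F : MvPolynomial (Fin m × Fin (M + 1)) ℂ} (hF : F ∈ EE (M + 1) m mu) (h : up g + lsub m (cen (M + 1)) F = 0) : g = 0 ∧ F = 0 := by
  have hT := (mem_TI.1 (cen_mem_TI hF)).2.2.2
  have h1 : fis (up g) F = 0 := by
    refine fis_disjoint _ _ fun v hv => ?_
    obtain ⟨k, hk⟩ := up_empty v hv
    by_contra hne
    have h2 := (mem_EE.1 hF).2.2.1 v hne k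
    omega
  have h2 : lsub m (cen (M + 1)) F = - up g := eq_neg_of_add_eq_zero_right h
  have h3 : fis (lsub m (cen (M + 1)) F) (F - lsub m (cen (M + 1)) F) = 0 :=
    fis_ideal Finset.univ (fun v j => (v, j)) _ hT _ (mk_cen F)
  have h4 : lsub m (cen (M + 1)) F = 0 := by
    apply fis_self
    rw [fis_sub_right, sub_eq_zero] at h3
    rw [← h3]
    conv_lhs => rw [h2]
    rw [fis_neg_left, h1, neg_zero]
  have h5 : up g = 0 := by
    rw [h4, add_zero] at h
    exact h
  refine ⟨?_, ?_⟩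
  · apply LAM_inj
    rw [← Z0_up, h5, map_zero]
  · refine eq_zero_of_ideal hM hF ?_
    have h6 := mk_cen F
    rwa [h4, sub_zero] at h6

theorem q1_of (y m : ℕ) (mu : Fin m → ℕ) (hy : 1 ≤ y) :
    T y (∑ i, mu i) m mu + Module.finrank ℂ (EE (y + 1) m mu) ≤ T (y + 1) (∑ i, mu i) m mu := by
  let A : MvPolynomial (Fin m × Fin y) ℂ →ₗ[ℂ] MvPolynomial (Fin m × Fin (y + 1)) ℂ :=
    ∑ k : Fin (y + 1), (rc m (ins k)).toLinearMap
  have hA : ∀ g, A g = up g := by
    intro g
    rw [LinearMap.sum_apply, up]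
    rfl
  let L1 : TI y (∑ i, mu i) m mu →ₗ[ℂ] TI (y + 1) (∑ i, mu i) m mu :=
    A.restrict fun g hg => by
      rw [hA]
      exact up_mem_TI hg
  let L2 : EE (y + 1) m mu →ₗ[ℂ] TI (y + 1) (∑ i, mu i) m mu :=
    (lsub m (cen (y + 1))).toLinearMap.restrict fun F hF => cen_mem_TI hF
  have hinj : Function.Injective (L1.coprod L2) := by
    refine (injective_iff_map_eq_zero _).2 ?_
    rintro ⟨g, F⟩ hgF
    rw [LinearMap.coprod_apply] at hgF
    have h1 : up g.1 + lsub m (cen (y + 1)) F.1 = 0 := by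
      rw [← hA]
      exact congrArg Subtype.val hgF
    obtain ⟨h2, h3⟩ := core hy F.2 h1
    have h4 : g = 0 := Subtype.ext h2
    have h5 : F = 0 := Subtype.ext h3
    rw [h4, h5]
    rfl
  have h := LinearMap.finrank_le_finrank_of_injective hinj
  rw [Module.finrank_prod] at h
  exact h

/-- **(Q1)** -/
theorem q1 : Q1 := fun y m mu hy => q1_of y m mu hy

end Vale.Agent.P181.GN.H242
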